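import Mathlib

/-!
# Chords of midpoint-concave continuous functions (helper library for S0423)
-/

namespace Crest.Agent.Lead

open Set

/-- A continuous midpoint-concave function lies above its chords. -/
lemma chord_le_of_midpoint {g : ℝ → ℝ} (hc : Continuous g)
    (hm : ∀ x y, (g x + g y) / 2 ≤ g ((x + y) / 2)) {a b t : ℝ} (hab : a < b)
    (ht : t ∈ Icc a b) :
    g a + (g b - g a) / (b - a) * (t - a) ≤ g t := by
  have hba : (b - a) ≠ 0 := by linarith
  set ψ : ℝ → ℝ := fun s => g s - (g a + (g b - g a) / (b - a) * (s - a)) with hψ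
  have hψc : Continuous ψ := by
    rw [hψ]; fun_prop
  have hψa : ψ a = 0 := by simp [hψ]
  have hψb : ψ b = 0 := by
    simp only [hψ]; field_simp; ring
  have hψm : ∀ x y, (ψ x + ψ y) / 2 ≤ ψ ((x + y) / 2) := by
    intro x y
    have := hm x y
    simp only [hψ]
    have e : (g a + (g b - g a) / (b - a) * ((x + y) / 2 - a))
        = ((g a + (g b - g a) / (b - a) * (x - a)) + (g a + (g b - g a) / (b - a) * (y - a))) / 2 := by
      ring
    rw [e]; linarith
  suffices h : 0 ≤ ψ t by
    simp only [hψ] at h; linarith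
  by_contra hneg
  rw [not_le] at hneg
  obtain ⟨t₁, ht₁, hmin⟩ := isCompact_Icc.exists_isMinOn (nonempty_Icc.mpr hab.le)
    hψc.continuousOn
  set m := ψ t₁ with hm_def
  have hm_neg : m < 0 := lt_of_le_of_lt (hmin ht) hneg
  set K : Set ℝ := Icc a b ∩ ψ ⁻¹' {m} with hK
  have hKclosed : IsClosed K := isClosed_Icc.inter (isClosed_singleton.preimage hψc)
  have hKne : K.Nonempty := ⟨t₁, ht₁, rfl⟩
  have hKbdd : BddBelow K := ⟨a, fun s hs => hs.1.1⟩
  have ht₀ : sInf K ∈ K := hKclosed.csInf_mem hKne hKbdd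
  set t₀ := sInf K with ht₀_def
  have ht₀m : ψ t₀ = m := ht₀.2
  have ha_ne : t₀ ≠ a := by
    intro h; rw [h, hψa] at ht₀m; linarith
  have hb_ne : t₀ ≠ b := by
    intro h; rw [h, hψb] at ht₀m; linarith
  have hat₀ : a < t₀ := lt_of_le_of_ne ht₀.1.1 (Ne.symm ha_ne)
  have ht₀b : t₀ < b := lt_of_le_of_ne ht₀.1.2 hb_ne
  set d := min (t₀ - a) (b - t₀) with hd
  have hd_pos : 0 < d := lt_min (by linarith) (by linarith)
  have hd1 : d ≤ t₀ - a := min_le_left _ _
  have hd2 : d ≤ b - t₀ := min_le_right _ _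
  have hmem1 : t₀ - d ∈ Icc a b := ⟨by linarith, by linarith⟩
  have hmem2 : t₀ + d ∈ Icc a b := ⟨by linarith, by linarith⟩
  have h1 : m ≤ ψ (t₀ - d) := hmin hmem1
  have h2 : m ≤ ψ (t₀ + d) := hmin hmem2
  have h1' : ψ (t₀ - d) ≠ m := by
    intro h
    have : t₀ - d ∈ K := ⟨hmem1, h⟩
    have := csInf_le hKbdd this
    linarith
  have h1'' : m < ψ (t₀ - d) := lt_of_le_of_ne h1 (Ne.symm h1')
  have h3 := hψm (t₀ - d) (t₀ + d)
  have e : (t₀ - d + (t₀ + d)) / 2 = t₀ := by ring
  rw [e, ht₀m] at h3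
  linarith

/-- Chord comparison, inside: on `[u, v]` the function is above the chord through `u`, `v`. -/
lemma chord_inside {g : ℝ → ℝ} (hc : Continuous g)
    (hm : ∀ x y, (g x + g y) / 2 ≤ g ((x + y) / 2)) {u v t : ℝ} (huv : u < v)
    (ht : t ∈ Icc u v) :
    g u - (g u - g v) / (v - u) * (t - u) ≤ g t := by
  have := chord_le_of_midpoint hc hm huv ht
  have e : g u - (g u - g v) / (v - u) * (t - u) = g u + (g v - g u) / (v - u) * (t - u) := by
    ring
  rw [e]; exact this

/-- Chord comparison, outside on the left. -/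
lemma chord_left {g : ℝ → ℝ} (hc : Continuous g)
    (hm : ∀ x y, (g x + g y) / 2 ≤ g ((x + y) / 2)) {u v t : ℝ} (huv : u < v)
    (ht : t ≤ u) :
    g t ≤ g u - (g u - g v) / (v - u) * (t - u) := by
  rcases eq_or_lt_of_le ht with h | h
  · subst h; simp
  · have htv : t < v := by linarith
    have := chord_le_of_midpoint hc hm htv (t := u) ⟨h.le, huv.le⟩
    have h1 : 0 < v - u := by linarith
    have h2 : 0 < v - t := by linarith
    have h3 : 0 < u - t := by linarith
    rw [div_mul_eq_mul_div, ← sub_nonneg] at this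
    rw [div_mul_eq_mul_div, ← sub_nonneg]
    have e1 : g u - (g t + (g v - g t) * (u - t) / (v - t))
        = ((g u - g t) * (v - t) - (g v - g t) * (u - t)) / (v - t) := by
      field_simp; ring
    have e2 : g u - (g u - g v) * (t - u) / (v - u) - g t
        = ((g u - g t) * (v - t) - (g v - g t) * (u - t)) / (v - u) := by
      field_simp; ring
    rw [e1] at this
    rw [e2]
    have h4 : 0 ≤ (g u - g t) * (v - t) - (g v - g t) * (u - t) := by
      by_contra hn
      rw [not_le] at hn
      have := div_neg_of_neg_of_pos hn h2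
      linarith
    exact div_nonneg h4 h1.le

/-- Chord comparison, outside on the right. -/
lemma chord_right {g : ℝ → ℝ} (hc : Continuous g)
    (hm : ∀ x y, (g x + g y) / 2 ≤ g ((x + y) / 2)) {u v t : ℝ} (huv : u < v)
    (ht : v ≤ t) :
    g t ≤ g u - (g u - g v) / (v - u) * (t - u) := by
  rcases eq_or_lt_of_le ht with h | h
  · subst h
    have h1 : v - u ≠ 0 := by linarith
    have : g u - (g u - g v) / (v - u) * (v - u) = g v := by field_simp; ring
    rw [this]
  · have hut : u < t := by linarith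
    have := chord_le_of_midpoint hc hm hut (t := v) ⟨huv.le, h.le⟩
    have h1 : 0 < v - u := by linarith
    have h2 : 0 < t - u := by linarith
    rw [div_mul_eq_mul_div, ← sub_nonneg] at this
    rw [div_mul_eq_mul_div, ← sub_nonneg]
    have e1 : g v - (g u + (g t - g u) * (v - u) / (t - u))
        = ((g v - g u) * (t - u) - (g t - g u) * (v - u)) / (t - u) := by
      field_simp; ring
    have e2 : g u - (g u - g v) * (t - u) / (v - u) - g t
        = ((g v - g u) * (t - u) - (g t - g u) * (v - u)) / (v - u) := by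
      field_simp; ring
    rw [e1] at this
    rw [e2]
    have h4 : 0 ≤ (g v - g u) * (t - u) - (g t - g u) * (v - u) := by
      by_contra hn
      rw [not_le] at hn
      have := div_neg_of_neg_of_pos hn h2
      linarith
    exact div_nonneg h4 h1.le

/-- Slope monotonicity: moving both endpoints of a chord to the right decreases the slope;
stated for the "negative slopes" `(g u - g v) / (v - u)`. -/
lemma slope_mono {g : ℝ → ℝ} (hc : Continuous g)
    (hm : ∀ x y, (g x + g y) / 2 ≤ g ((x + y) / 2)) {u₀ v₀ u v : ℝ} (h0 : u₀ < v₀)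
    (hu : u₀ ≤ u) (hv : v₀ ≤ v) (huv : u < v) :
    (g u₀ - g v₀) / (v₀ - u₀) ≤ (g u - g v) / (v - u) := by
  -- step 1: slope(u₀, v₀) ≥ slope(u₀, v) i.e. negslope(u₀,v₀) ≤ negslope(u₀, v)
  have hu₀v : u₀ < v := by linarith
  have s1 : (g u₀ - g v₀) / (v₀ - u₀) ≤ (g u₀ - g v) / (v - u₀) := by
    have := chord_inside hc hm hu₀v (t := v₀) ⟨h0.le, hv⟩
    have h1 : 0 < v₀ - u₀ := by linarith
    rw [div_le_iff₀ h1]
    linarith
  -- step 2: negslope(u₀, v) ≤ negslope(u, v)
  have s2 : (g u₀ - g v) / (v - u₀) ≤ (g u - g v) / (v - u) := by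
    have := chord_inside hc hm hu₀v (t := u) ⟨hu, huv.le⟩
    have h1 : 0 < v - u := by linarith
    have h2 : 0 < v - u₀ := by linarith
    rw [le_div_iff₀ h1]
    -- this : g u₀ - N * (u - u₀) ≤ g u, with N = (g u₀ - g v)/(v - u₀); want N * (v - u) ≤ g u - g v
    have e : (g u₀ - g v) / (v - u₀) * (v - u)
        = (g u₀ - g v) - (g u₀ - g v) / (v - u₀) * (u - u₀) := by
      field_simp; ring
    rw [e]; linarith
  exact s1.trans s2

end Crest.Agent.Lead
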