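import Mathlib

/-!
# Shifted exponential survival functions (helper library for S0423)
-/

namespace Crest.Agent.Lead

open MeasureTheory Set

/-- shifted exponential survival function `t ↦ min 1 (exp (-lam (t - th)))`. -/
noncomputable def Efun (lam th t : ℝ) : ℝ := min 1 (Real.exp (-lam * (t - th)))

/-- reference step function `1_{t ≤ 0}`. -/
noncomputable def stepf (t : ℝ) : ℝ := if t ≤ 0 then 1 else 0

lemma Efun_pos (lam th t : ℝ) : 0 < Efun lam th t := lt_min one_pos (Real.exp_pos _)

lemma Efun_le_one (lam th t : ℝ) : Efun lam th t ≤ 1 := min_le_left _ _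

lemma continuous_Efun (lam th : ℝ) : Continuous (Efun lam th) := by
  unfold Efun; fun_prop

lemma Efun_mono_th {lam : ℝ} (hl : 0 ≤ lam) {th th' : ℝ} (h : th ≤ th') (t : ℝ) :
    Efun lam th t ≤ Efun lam th' t := by
  unfold Efun
  apply min_le_min le_rfl
  apply Real.exp_le_exp.mpr
  nlinarith

lemma Efun_eq_one {lam th t : ℝ} (hl : 0 < lam) (h : t ≤ th) : Efun lam th t = 1 := by
  unfold Efun
  apply min_eq_left
  have h0 : (0:ℝ) ≤ -lam * (t - th) := by nlinarith
  calc (1:ℝ) = Real.exp 0 := Real.exp_zero.symm
    _ ≤ Real.exp (-lam * (t - th)) := Real.exp_le_exp.mpr h0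

lemma Efun_eq_exp {lam th t : ℝ} (hl : 0 < lam) (h : th ≤ t) :
    Efun lam th t = Real.exp (-lam * (t - th)) := by
  unfold Efun
  apply min_eq_right
  rw [Real.exp_le_one_iff]
  nlinarith

lemma Efun_le_exp (lam th t : ℝ) : Efun lam th t ≤ Real.exp (-lam * (t - th)) := min_le_right _ _

lemma measurable_stepf : Measurable stepf := by
  unfold stepf
  exact Measurable.ite measurableSet_Iic measurable_const measurable_const

/-- the step part: `1_{t ≤ th} - 1_{t ≤ 0}` is integrable with integral `th`. -/
lemma step_diff (th : ℝ) :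
    Integrable (fun t : ℝ => (if t ≤ th then (1:ℝ) else 0) - stepf t) ∧
      ∫ t : ℝ, ((if t ≤ th then (1:ℝ) else 0) - stepf t) = th := by
  rcases le_or_gt 0 th with h | h
  · have e : (fun t : ℝ => (if t ≤ th then (1:ℝ) else 0) - stepf t)
        = (Ioc 0 th).indicator (fun _ => (1:ℝ)) := by
      funext t
      unfold stepf
      by_cases h1 : t ≤ 0
      · have h2 : t ≤ th := h1.trans h
        have h3 : t ∉ Ioc 0 th := fun hh => absurd hh.1 (not_lt.mpr h1)
        simp [h1, h2, h3]
      · by_cases h2 : t ≤ th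
        · have h3 : t ∈ Ioc 0 th := ⟨not_le.mp h1, h2⟩
          simp [h1, h2, h3]
        · have h3 : t ∉ Ioc 0 th := fun hh => h2 hh.2
          simp [h1, h2, h3]
    rw [e]
    refine ⟨?_, ?_⟩
    · apply IntegrableOn.integrable_indicator _ measurableSet_Ioc
      exact integrableOn_const (by simp)
    · rw [integral_indicator measurableSet_Ioc, setIntegral_const, Real.volume_real_Ioc_of_le h]
      simp
  · have e : (fun t : ℝ => (if t ≤ th then (1:ℝ) else 0) - stepf t)
        = fun t => - (Ioc th 0).indicator (fun _ => (1:ℝ)) t := by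
      funext t
      unfold stepf
      by_cases h1 : t ≤ th
      · have h2 : t ≤ 0 := h1.trans h.le
        have h3 : t ∉ Ioc th 0 := fun hh => absurd hh.1 (not_lt.mpr h1)
        simp [h1, h2, h3]
      · by_cases h2 : t ≤ 0
        · have h3 : t ∈ Ioc th 0 := ⟨not_le.mp h1, h2⟩
          simp [h1, h2, h3]
        · have h3 : t ∉ Ioc th 0 := fun hh => h2 hh.2
          simp [h1, h2, h3]
    rw [e]
    refine ⟨?_, ?_⟩
    · apply Integrable.neg
      apply IntegrableOn.integrable_indicator _ measurableSet_Ioc
      exact integrableOn_const (by simp)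
    · rw [integral_neg, integral_indicator measurableSet_Ioc, setIntegral_const,
        Real.volume_real_Ioc_of_le h.le]
      simp

/-- the exponential tail part. -/
lemma exp_tail {lam : ℝ} (hl : 0 < lam) (th : ℝ) :
    Integrable ((Ioi th).indicator (fun t : ℝ => Real.exp (-lam * (t - th)))) ∧
      ∫ t : ℝ, (Ioi th).indicator (fun t : ℝ => Real.exp (-lam * (t - th))) t = 1 / lam := by
  have e : (fun t : ℝ => Real.exp (-lam * (t - th)))
      = fun t => Real.exp (lam * th) * Real.exp (-lam * t) := by
    funext t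
    rw [← Real.exp_add]; congr 1; ring
  have hint : IntegrableOn (fun t : ℝ => Real.exp (-lam * (t - th))) (Ioi th) := by
    rw [e]
    exact (integrableOn_exp_mul_Ioi (by linarith : -lam < 0) th).const_mul _
  refine ⟨hint.integrable_indicator measurableSet_Ioi, ?_⟩
  rw [integral_indicator measurableSet_Ioi, e, integral_const_mul,
    integral_exp_mul_Ioi (by linarith : -lam < 0) th]
  have h1 : Real.exp (lam * th) * Real.exp (-lam * th) = 1 := by
    rw [← Real.exp_add]; simp
  have hl' : lam ≠ 0 := hl.ne'
  have h2 : Real.exp (lam * th) * (-Real.exp (-lam * th) / -lam)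
      = (Real.exp (lam * th) * Real.exp (-lam * th)) / lam := by
    field_simp
  rw [h2, h1]

lemma Efun_decomp {lam : ℝ} (hl : 0 < lam) (th : ℝ) :
    (fun t => Efun lam th t - stepf t)
      = fun t => ((if t ≤ th then (1:ℝ) else 0) - stepf t)
          + (Ioi th).indicator (fun t : ℝ => Real.exp (-lam * (t - th))) t := by
  funext t
  by_cases h : t ≤ th
  · have h3 : t ∉ Ioi th := fun hh => absurd hh (not_lt.mpr h)
    rw [Efun_eq_one hl h]
    simp [h, h3]
  · have h3 : t ∈ Ioi th := not_le.mp h
    rw [Efun_eq_exp hl (not_le.mp h).le]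
    simp [h, h3]
    ring

lemma Efun_sub_step_integrable {lam : ℝ} (hl : 0 < lam) (th : ℝ) :
    Integrable (fun t => Efun lam th t - stepf t) := by
  rw [Efun_decomp hl th]
  exact (step_diff th).1.add (exp_tail hl th).1

lemma Efun_sub_step_integral {lam : ℝ} (hl : 0 < lam) (th : ℝ) :
    ∫ t, (Efun lam th t - stepf t) = th + 1 / lam := by
  rw [Efun_decomp hl th, integral_add (step_diff th).1 (exp_tail hl th).1, (step_diff th).2,
    (exp_tail hl th).2]

/-- For a survival-type function `S` with mean zero, `S - stepf` is integrable with integral `0`. -/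
lemma S_sub_step {S : ℝ → ℝ}
    (hint : IntegrableOn S (Ioi 0)) (hint' : IntegrableOn (fun t => 1 - S t) (Iic 0))
    (hmean : ∫ t in Ioi 0, S t = ∫ t in Iic 0, (1 - S t)) :
    Integrable (fun t => S t - stepf t) ∧ ∫ t, (S t - stepf t) = 0 := by
  have e : (fun t => S t - stepf t)
      = fun t => (Ioi 0).indicator S t - (Iic 0).indicator (fun t => 1 - S t) t := by
    funext t
    unfold stepf
    by_cases h : t ≤ 0
    · have h3 : t ∉ Ioi (0:ℝ) := fun hh => absurd hh (not_lt.mpr h)
      have h4 : t ∈ Iic (0:ℝ) := h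
      simp [h, h3]
    · have h3 : t ∈ Ioi (0:ℝ) := not_le.mp h
      have h4 : t ∉ Iic (0:ℝ) := h
      simp [h, h3]
  have i1 := hint.integrable_indicator measurableSet_Ioi
  have i2 := hint'.integrable_indicator measurableSet_Iic
  rw [e]
  refine ⟨i1.sub i2, ?_⟩
  rw [integral_sub i1 i2, integral_indicator measurableSet_Ioi, integral_indicator measurableSet_Iic,
    hmean, sub_self]

end Crest.Agent.Lead
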