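import Mathlib

/-!
# The kernel `kern` and its level sets (helper library for S0423)
-/

namespace Crest.Agent.Lead

open MeasureTheory Set

/-- `phi y = y * exp (-y)` for `y > 0`, and `0` otherwise (the `Γ₂` density). -/
noncomputable def phi (y : ℝ) : ℝ := if y ≤ 0 then 0 else y * Real.exp (-y)

/-- the kernel: density of `Γ₂ - 4/3`. -/
noncomputable def kern (t : ℝ) : ℝ :=
  if t ≤ -(4/3) then 0 else (t + 4/3) * Real.exp (-(t + 4/3))

lemma kern_eq_phi (t : ℝ) : kern t = phi (t + 4/3) := by
  unfold kern phi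
  by_cases h : t ≤ -(4/3)
  · have h' : t + 4/3 ≤ 0 := by linarith
    simp [h, h']
  · have h' : ¬ (t + 4/3 ≤ 0) := by intro h''; exact h (by linarith)
    simp [h, h']

lemma phi_nonneg (y : ℝ) : 0 ≤ phi y := by
  unfold phi; split_ifs with h
  · exact le_rfl
  · rw [not_le] at h; positivity

lemma phi_le_one (y : ℝ) : phi y ≤ 1 := by
  unfold phi; split_ifs with h
  · norm_num
  · have h1 := Real.add_one_le_exp y
    have h2 : 0 < Real.exp y := Real.exp_pos _
    rw [Real.exp_neg, ← div_eq_mul_inv, div_le_one h2]; linarith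

lemma phi_le_self {y : ℝ} (hy : 0 ≤ y) : phi y ≤ y := by
  unfold phi; split_ifs with h
  · exact hy
  · have h2 : Real.exp (-y) ≤ 1 := by
      rw [Real.exp_le_one_iff]; linarith
    nlinarith

lemma kern_nonneg (t : ℝ) : 0 ≤ kern t := by rw [kern_eq_phi]; exact phi_nonneg _

lemma kern_le_one (t : ℝ) : kern t ≤ 1 := by rw [kern_eq_phi]; exact phi_le_one _

lemma measurable_phi : Measurable phi := by
  unfold phi
  exact Measurable.ite measurableSet_Iic measurable_const (by fun_prop)

lemma measurable_kern : Measurable kern := by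
  have : kern = fun t => phi (t + 4/3) := funext kern_eq_phi
  rw [this]
  exact measurable_phi.comp (by fun_prop)

/-- `phi` is nondecreasing on `(-∞, 1]`. -/
lemma phi_mono {a b : ℝ} (hab : a ≤ b) (hb : b ≤ 1) : phi a ≤ phi b := by
  by_cases ha : a ≤ 0
  · have : phi a = 0 := by simp [phi, ha]
    rw [this]; exact phi_nonneg b
  · rw [not_le] at ha
    have hb0 : 0 < b := lt_of_lt_of_le ha hab
    have e1 : phi a = a * Real.exp (-a) := by simp [phi, not_le.mpr ha]
    have e2 : phi b = b * Real.exp (-b) := by simp [phi, not_le.mpr hb0]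
    rw [e1, e2]
    -- a e^{-a} ≤ b e^{-b}  ⟸  a ≤ b e^{-(b-a)}, and e^{-(b-a)} ≥ 1 - (b - a)
    have h1 : 1 - (b - a) ≤ Real.exp (-(b - a)) := by
      have := Real.add_one_le_exp (-(b - a)); linarith
    have h2 : Real.exp (-b) = Real.exp (-a) * Real.exp (-(b - a)) := by
      rw [← Real.exp_add]; congr 1; ring
    rw [h2]
    have h3 : 0 < Real.exp (-a) := Real.exp_pos _
    have h4 : a ≤ b * Real.exp (-(b - a)) := by
      have : a ≤ b * (1 - (b - a)) := by nlinarith
      exact this.trans (mul_le_mul_of_nonneg_left h1 hb0.le)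
    calc a * Real.exp (-a) ≤ (b * Real.exp (-(b - a))) * Real.exp (-a) :=
          mul_le_mul_of_nonneg_right h4 h3.le
      _ = b * (Real.exp (-a) * Real.exp (-(b - a))) := by ring

/-- `phi` is nonincreasing on `[1, ∞)`. -/
lemma phi_anti {a b : ℝ} (ha : 1 ≤ a) (hab : a ≤ b) : phi b ≤ phi a := by
  have ha0 : 0 < a := by linarith
  have hb0 : 0 < b := by linarith
  have e1 : phi a = a * Real.exp (-a) := by simp [phi, not_le.mpr ha0]
  have e2 : phi b = b * Real.exp (-b) := by simp [phi, not_le.mpr hb0]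
  rw [e1, e2]
  have h1 : 1 + (b - a) ≤ Real.exp (b - a) := by
    have := Real.add_one_le_exp (b - a); linarith
  have h2 : Real.exp (-a) = Real.exp (-b) * Real.exp (b - a) := by
    rw [← Real.exp_add]; congr 1; ring
  rw [h2]
  have h3 : 0 < Real.exp (-b) := Real.exp_pos _
  have h4 : b ≤ a * Real.exp (b - a) := by
    have : b ≤ a * (1 + (b - a)) := by nlinarith
    exact this.trans (mul_le_mul_of_nonneg_left h1 ha0.le)
  calc b * Real.exp (-b) ≤ (a * Real.exp (b - a)) * Real.exp (-b) :=
        mul_le_mul_of_nonneg_right h4 h3.le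
    _ = a * (Real.exp (-b) * Real.exp (b - a)) := by ring

/-! ### Parametrisation of the level pairs -/

/-- left abscissa (in the `y = t + 4/3` variable) of the level pair with ratio `r`. -/
noncomputable def xr (r : ℝ) : ℝ := Real.log r / (r - 1)

lemma xr_pos {r : ℝ} (hr : 1 < r) : 0 < xr r := by
  unfold xr
  exact div_pos (Real.log_pos hr) (by linarith)

lemma xr_lt_one {r : ℝ} (hr : 1 < r) : xr r < 1 := by
  unfold xr
  rw [div_lt_one (by linarith)]
  exact Real.log_lt_sub_one_of_pos (by linarith) (by linarith)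

lemma one_lt_r_mul_xr {r : ℝ} (hr : 1 < r) : 1 < r * xr r := by
  unfold xr
  have hr0 : 0 < r := by linarith
  have h1 : Real.log r⁻¹ < r⁻¹ - 1 := by
    apply Real.log_lt_sub_one_of_pos (by positivity)
    intro h
    have : r = 1 := by
      have := congrArg (fun z => z⁻¹) h
      simpa using this
    linarith
  rw [Real.log_inv] at h1
  have h2 : r - 1 < r * Real.log r := by
    have : r * r⁻¹ = 1 := mul_inv_cancel₀ hr0.ne'
    nlinarith
  rw [mul_div_assoc', lt_div_iff₀ (by linarith)]
  linarith

lemma r_mul_xr_sub {r : ℝ} (hr : 1 < r) : r * xr r - xr r = Real.log r := by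
  unfold xr
  have : r - 1 ≠ 0 := by linarith
  field_simp

lemma phi_xr_eq {r : ℝ} (hr : 1 < r) : phi (r * xr r) = phi (xr r) := by
  have hx := xr_pos hr
  have hy : 0 < r * xr r := by linarith [one_lt_r_mul_xr hr]
  have hr0 : 0 < r := by linarith
  have e1 : phi (xr r) = xr r * Real.exp (-xr r) := by simp [phi, not_le.mpr hx]
  have e2 : phi (r * xr r) = r * xr r * Real.exp (-(r * xr r)) := by simp [phi, not_le.mpr hy]
  rw [e1, e2]
  have h : -(r * xr r) = -xr r + -Real.log r := by
    have := r_mul_xr_sub hr; linarith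
  rw [h, Real.exp_add, Real.exp_neg (Real.log r), Real.exp_log hr0]
  field_simp

/-- inside the level interval the kernel is at least the level. -/
lemma kern_ge_level {r t : ℝ} (hr : 1 < r) (h1 : xr r - 4/3 ≤ t) (h2 : t ≤ r * xr r - 4/3) :
    phi (xr r) ≤ kern t := by
  rw [kern_eq_phi]
  by_cases h : t + 4/3 ≤ 1
  · exact phi_mono (by linarith) h
  · rw [not_le] at h
    rw [← phi_xr_eq hr]
    exact phi_anti h.le (by linarith)

/-- outside the level interval the kernel is at most the level. -/
lemma kern_le_level {r t : ℝ} (hr : 1 < r) (h : t ≤ xr r - 4/3 ∨ r * xr r - 4/3 ≤ t) :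
    kern t ≤ phi (xr r) := by
  rw [kern_eq_phi]
  rcases h with h | h
  · exact phi_mono (by linarith) (xr_lt_one hr).le
  · rw [← phi_xr_eq hr]
    exact phi_anti (one_lt_r_mul_xr hr).le (by linarith)

end Crest.Agent.Lead
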