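import Mathlib
import Crest.Agent.Lead.Kern
import Crest.Agent.Lead.ExpFamily

/-!
# The one-parameter minimisation (helper library for S0423)

For every `lam > 0`: `4/9 * exp (-1/3) ≤ ∫ t, Efun lam (-1/lam) t * kern t`.
-/

namespace Crest.Agent.Lead

open MeasureTheory Set

/-- `∫_{(0,∞)} y e^{-βy} dy = 1/β²`. -/
lemma integral_id_mul_exp {β : ℝ} (hβ : 0 < β) :
    IntegrableOn (fun y : ℝ => y * Real.exp (-(β * y))) (Ioi 0) ∧
      ∫ y in Ioi 0, y * Real.exp (-(β * y)) = 1 / β ^ 2 := by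
  have key := Real.integral_rpow_mul_exp_neg_mul_Ioi (a := 2) (r := β) (by norm_num) hβ
  have e : ∀ y ∈ Ioi (0:ℝ), y ^ ((2:ℝ) - 1) * Real.exp (-(β * y)) = y * Real.exp (-(β * y)) := by
    intro y _
    have : ((2:ℝ) - 1) = 1 := by norm_num
    rw [this, Real.rpow_one]
  rw [setIntegral_congr_fun measurableSet_Ioi e] at key
  have val : (1 / β) ^ (2:ℝ) * Real.Gamma 2 = 1 / β ^ 2 := by
    rw [Real.Gamma_two, mul_one]
    have : (1 / β) ^ (2:ℝ) = (1 / β) ^ (2:ℕ) := by
      rw [← Real.rpow_natCast]; norm_num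
    rw [this]; field_simp
  rw [val] at key
  refine ⟨?_, key⟩
  apply Integrable.of_integral_ne_zero
  rw [key]; positivity

lemma J_shift (lam : ℝ) :
    ∫ t, Efun lam (-1 / lam) t * kern t = ∫ y, Efun lam (-1 / lam) (y - 4/3) * phi y := by
  have := integral_add_right_eq_self (μ := (volume : Measure ℝ))
    (fun y : ℝ => Efun lam (-1 / lam) (y - 4/3) * phi y) (4/3)
  rw [← this]
  congr 1; funext t
  rw [kern_eq_phi]
  have : t + 4/3 - 4/3 = t := by ring
  rw [this]

lemma exp_third_bound : Real.exp (-(1/3 : ℝ)) ≤ 36 / 49 := by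
  have h := Real.quadratic_le_exp_of_nonneg (x := (1/3 : ℝ)) (by norm_num)
  have h2 : (49 / 36 : ℝ) ≤ Real.exp (1/3) := by
    have : (49 / 36 : ℝ) ≤ 1 + 1/3 + (1/3)^2 / 2 := by norm_num
    linarith
  rw [Real.exp_neg]
  have hpos : 0 < Real.exp (1/3 : ℝ) := Real.exp_pos _
  rw [inv_le_comm₀ hpos (by norm_num)]
  have : (36 / 49 : ℝ)⁻¹ = 49 / 36 := by norm_num
  rw [this]; exact h2

/-- branch 1: `lam * (4/3) ≤ 1`. -/
lemma J_ge_branch1 {lam : ℝ} (hl : 0 < lam) (hb : lam * (4/3) ≤ 1) :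
    4 / 9 * Real.exp (-(1/3)) ≤ ∫ t, Efun lam (-1 / lam) t * kern t := by
  rw [J_shift]
  have hβ : 0 < 1 + lam := by linarith
  obtain ⟨hint, hval⟩ := integral_id_mul_exp hβ
  have hpt : (fun y => Efun lam (-1 / lam) (y - 4/3) * phi y)
      = (Ioi (0:ℝ)).indicator
          (fun y => Real.exp (lam * (4/3) - 1) * (y * Real.exp (-((1 + lam) * y)))) := by
    funext y
    by_cases hy : y ≤ 0
    · have h3 : y ∉ Ioi (0:ℝ) := fun hh => absurd hh (not_lt.mpr hy)
      simp [phi, hy, h3]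
    · have hy' : 0 < y := not_le.mp hy
      have h3 : y ∈ Ioi (0:ℝ) := hy'
      have h4 : -1 / lam ≤ y - 4/3 := by
        rw [div_le_iff₀ hl]; nlinarith
      rw [Efun_eq_exp hl h4]
      simp only [phi, hy, if_false, indicator_of_mem h3]
      have e : -lam * (y - 4/3 - -1 / lam) = (lam * (4/3) - 1) + -(lam * y) := by
        field_simp; ring
      have e2 : -((1 + lam) * y) = -(lam * y) + -y := by ring
      rw [e, e2, Real.exp_add, Real.exp_add]; ring
  rw [hpt, integral_indicator measurableSet_Ioi, integral_const_mul, hval]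
  -- tangent line inequality
  have h1 : (2/3 : ℝ) * (1 + lam) ≤ Real.exp (lam * (2/3) - 1/3) := by
    have := Real.add_one_le_exp (lam * (2/3) - 1/3)
    linarith
  have h2 : Real.exp (lam * (4/3) - 1)
      = Real.exp (-(1/3)) * (Real.exp (lam * (2/3) - 1/3)) ^ 2 := by
    rw [sq, ← Real.exp_add, ← Real.exp_add]; congr 1; ring
  rw [h2]
  have h3 : ((2/3 : ℝ) * (1 + lam)) ^ 2 ≤ (Real.exp (lam * (2/3) - 1/3)) ^ 2 :=
    pow_le_pow_left₀ (by positivity) h1 2
  have h4 : 0 < Real.exp (-(1/3 : ℝ)) := Real.exp_pos _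
  have h5 : 0 < (1 + lam) ^ 2 := by positivity
  rw [mul_one_div, le_div_iff₀ h5]
  nlinarith

/-- branch 2: `1 < lam * (4/3)`. -/
lemma J_ge_branch2 {lam : ℝ} (hl : 0 < lam) (hb : 1 < lam * (4/3)) :
    4 / 9 * Real.exp (-(1/3)) ≤ ∫ t, Efun lam (-1 / lam) t * kern t := by
  rw [J_shift]
  set β : ℝ := 1 + lam with hβdef
  set τ : ℝ := 4/3 - 1 / lam with hτdef
  have hβ : 0 < β := by rw [hβdef]; linarith
  have hτ : 0 < τ := by
    rw [hτdef, sub_pos, div_lt_iff₀ hl]; linarith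
  have hτ' : τ < 4/3 := by
    rw [hτdef]; have : 0 < 1 / lam := by positivity
    linarith
  have hlamτ : lam * τ = lam * (4/3) - 1 := by
    rw [hτdef]; field_simp
  obtain ⟨hint, hval⟩ := integral_id_mul_exp hβ
  -- the two pieces
  set f₁ : ℝ → ℝ := (Ioi (0:ℝ)).indicator
      (fun y => Real.exp (lam * τ) * (y * Real.exp (-(β * y)))) with hf₁
  set g₂ : ℝ → ℝ := fun y => Real.exp (lam * τ) * (y * Real.exp (-(β * y))) - y * Real.exp (-y)
    with hg₂
  set f₂ : ℝ → ℝ := (Ioc (0:ℝ) τ).indicator g₂ with hf₂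
  have hg₂c : Continuous g₂ := by rw [hg₂]; fun_prop
  have hpt : (fun y => Efun lam (-1 / lam) (y - 4/3) * phi y) = fun y => f₁ y - f₂ y := by
    funext y
    by_cases hy : y ≤ 0
    · have h3 : y ∉ Ioi (0:ℝ) := fun hh => absurd hh (not_lt.mpr hy)
      have h4 : y ∉ Ioc (0:ℝ) τ := fun hh => absurd hh.1 (not_lt.mpr hy)
      simp [phi, hy, h3, h4, hf₁, hf₂]
    · have hy' : 0 < y := not_le.mp hy
      have h3 : y ∈ Ioi (0:ℝ) := hy'
      by_cases hyτ : y ≤ τ
      · have h4 : y ∈ Ioc (0:ℝ) τ := ⟨hy', hyτ⟩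
        have h5 : y - 4/3 ≤ -1 / lam := by
          have : -1 / lam = -(1 / lam) := by ring
          rw [this]; rw [hτdef] at hyτ; linarith
        rw [Efun_eq_one hl h5]
        simp only [phi, hy, if_false, hf₁, hf₂, indicator_of_mem h3, indicator_of_mem h4, hg₂]
        ring
      · have h4 : y ∉ Ioc (0:ℝ) τ := fun hh => hyτ hh.2
        have h5 : -1 / lam ≤ y - 4/3 := by
          have : -1 / lam = -(1 / lam) := by ring
          rw [this]; rw [hτdef] at hyτ; linarith [not_le.mp hyτ]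
        rw [Efun_eq_exp hl h5]
        simp only [phi, hy, if_false, hf₁, hf₂, indicator_of_mem h3, indicator_of_notMem h4,
          sub_zero]
        have e : -lam * (y - 4/3 - -1 / lam) = lam * τ + -(lam * y) := by
          rw [hlamτ]; field_simp; ring
        have e2 : -(β * y) = -(lam * y) + -y := by rw [hβdef]; ring
        rw [e, e2, Real.exp_add, Real.exp_add]; ring
  have hi₁ : Integrable f₁ := by
    rw [hf₁]
    exact IntegrableOn.integrable_indicator (hint.const_mul _) measurableSet_Ioi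
  have hi₂ : Integrable f₂ := by
    rw [hf₂]
    apply IntegrableOn.integrable_indicator _ measurableSet_Ioc
    exact (hg₂c.integrableOn_Icc (a := 0) (b := τ)).mono_set Ioc_subset_Icc_self
  have hI₁ : ∫ y, f₁ y = Real.exp (lam * τ) * (1 / β ^ 2) := by
    rw [hf₁, integral_indicator measurableSet_Ioi, integral_const_mul, hval]
  -- the antiderivative
  set F : ℝ → ℝ := fun y =>
    -Real.exp (lam * τ) * ((y / β + 1 / β ^ 2) * Real.exp (-(β * y))) + (y + 1) * Real.exp (-y)
    with hF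
  have hderiv : ∀ y : ℝ, HasDerivAt F (g₂ y) y := by
    intro y
    have h1 : HasDerivAt (fun y : ℝ => y / β + 1 / β ^ 2) (1 / β) y := by
      simpa using ((hasDerivAt_id y).div_const β).add_const (1 / β ^ 2)
    have h2 : HasDerivAt (fun y : ℝ => Real.exp (-(β * y))) (Real.exp (-(β * y)) * (-β)) y := by
      have := ((hasDerivAt_id y).const_mul β).neg.exp
      simpa using this
    have h3 := h1.mul h2
    have h4 : HasDerivAt (fun y : ℝ => y + 1) 1 y := by
      simpa using (hasDerivAt_id y).add_const (1:ℝ)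
    have h5 : HasDerivAt (fun y : ℝ => Real.exp (-y)) (Real.exp (-y) * (-1)) y := by
      have := (hasDerivAt_id y).neg.exp
      simpa using this
    have h6 := h4.mul h5
    have h7 := (h3.const_mul (-Real.exp (lam * τ))).add h6
    have h8 : HasDerivAt F (-Real.exp (lam * τ) * (1 / β * Real.exp (-(β * y))
        + (y / β + 1 / β ^ 2) * (Real.exp (-(β * y)) * -β))
        + (1 * Real.exp (-y) + (y + 1) * (Real.exp (-y) * -1))) y := h7
    refine h8.congr_deriv ?_
    simp only [hg₂]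
    have hβ' : β ≠ 0 := hβ.ne'
    field_simp
    ring
  have hI₂ : ∫ y, f₂ y = F τ - F 0 := by
    rw [hf₂, integral_indicator measurableSet_Ioc, ← intervalIntegral.integral_of_le hτ.le]
    apply intervalIntegral.integral_eq_sub_of_hasDerivAt (fun y _ => hderiv y)
    exact hg₂c.intervalIntegrable _ _
  rw [hpt, integral_sub hi₁ hi₂, hI₁, hI₂]
  -- evaluate
  have hexp : Real.exp (lam * τ) * Real.exp (-(β * τ)) = Real.exp (-τ) := by
    rw [← Real.exp_add]; congr 1; rw [hβdef]; ring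
  have hFτ : F τ = -((τ / β + 1 / β ^ 2) * Real.exp (-τ)) + (τ + 1) * Real.exp (-τ) := by
    simp only [hF]
    rw [← hexp]; ring
  have hF0 : F 0 = -Real.exp (lam * τ) * (1 / β ^ 2) + 1 := by
    simp [hF]
  rw [hFτ, hF0]
  -- now a pure inequality:  m* ≤ 1 - exp(-τ) * ((τ + 1) - τ/β - 1/β²)
  have hgoal : Real.exp (-τ) * ((τ + 1) - τ / β - 1 / β ^ 2) ≤ 33 / 49 := by
    -- express through a = 1/lam
    set a : ℝ := 1 / lam with ha
    have ha0 : 0 < a := by rw [ha]; positivity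
    have hτa : τ = 4/3 - a := by rw [hτdef]
    have hβa : 1 / β = a / (1 + a) := by
      rw [hβdef, ha]; field_simp; ring
    have hB : (τ + 1) - τ / β - 1 / β ^ 2
        = (11/3 + τ/3 - τ^2) / (7/3 - τ) ^ 2 := by
      have h1 : τ / β = τ * (1 / β) := by ring
      have h2 : 1 / β ^ 2 = (1 / β) ^ 2 := by rw [one_div_pow]
      rw [h1, h2, hβa]
      have h3 : (7/3 : ℝ) - τ = 1 + a := by rw [hτa]; ring
      rw [h3]
      have h4 : (1 + a) ≠ 0 := by positivity
      rw [hτa]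
      field_simp
      ring
    rw [hB]
    have hP : 1 + τ + τ^2/2 + τ^3/6 ≤ Real.exp τ := by
      have := Real.sum_le_exp_of_nonneg hτ.le 4
      simp [Finset.sum_range_succ, Nat.factorial] at this
      linarith
    have hPpos : 0 < 1 + τ + τ^2/2 + τ^3/6 := by positivity
    have hden : 0 < (7/3 - τ) ^ 2 := by
      have : 0 < 7/3 - τ := by linarith
      positivity
    have hN : 0 ≤ 11/3 + τ/3 - τ^2 := by nlinarith
    rw [Real.exp_neg]
    have hexpτ : 0 < Real.exp τ := Real.exp_pos _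
    have step1 : (Real.exp τ)⁻¹ * ((11/3 + τ/3 - τ^2) / (7/3 - τ) ^ 2)
        ≤ (1 + τ + τ^2/2 + τ^3/6)⁻¹ * ((11/3 + τ/3 - τ^2) / (7/3 - τ) ^ 2) := by
      apply mul_le_mul_of_nonneg_right
      · exact inv_anti₀ hPpos hP
      · exact div_nonneg hN hden.le
    refine step1.trans ?_
    rw [inv_mul_eq_div, div_div, div_le_iff₀ (by positivity)]
    -- polynomial inequality: 49 N ≤ 33 (7/3 - τ)^2 P₃(τ)
    have hpoly : 0 ≤ 28/3 + (107/6) * τ - (253/18) * τ^2 - (55/6) * τ^3 + (11/2) * τ^4 := by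
      nlinarith [mul_nonneg hτ.le hτ.le, mul_nonneg hτ.le (sub_nonneg.mpr hτ'.le),
        mul_nonneg (mul_nonneg hτ.le hτ.le) (sub_nonneg.mpr hτ'.le),
        mul_nonneg (mul_nonneg hτ.le hτ.le) (mul_nonneg hτ.le (sub_nonneg.mpr hτ'.le)),
        mul_nonneg (sub_nonneg.mpr hτ'.le) (sub_nonneg.mpr hτ'.le), sq_nonneg (τ - 1),
        sq_nonneg (τ^2 - 1), sq_nonneg (τ^2 - τ)]
    nlinarith [mul_nonneg hτ.le hpoly]
  have hm := exp_third_bound
  nlinarith [Real.exp_pos (-(1/3 : ℝ)), Real.exp_pos (lam * τ), Real.exp_pos (-τ)]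

theorem J_ge {lam : ℝ} (hl : 0 < lam) :
    4 / 9 * Real.exp (-(1/3)) ≤ ∫ t, Efun lam (-1 / lam) t * kern t := by
  rcases le_or_gt (lam * (4/3)) 1 with h | h
  · exact J_ge_branch1 hl h
  · exact J_ge_branch2 hl h

end Crest.Agent.Lead
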