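import Mathlib
import Crest.Agent.Lead.Kern
import Crest.Agent.Lead.Chord
import Crest.Agent.Lead.ExpFamily
import Crest.Agent.Lead.JBound

/-!
# The abstract one-dimensional comparison theorem (helper library for S0423)

If `S : ℝ → ℝ` is a continuous, log-concave (midpoint form) function with values in `(0, 1)`,
with `S` integrable on `(0, ∞)`, `1 - S` integrable on `(-∞, 0]` and
`∫_{(0,∞)} S = ∫_{(-∞,0]} (1 - S)` (a mean-zero survival function), then
`4/9 * exp (-1/3) ≤ ∫ S * kern`.
-/

namespace Crest.Agent.Lead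

open MeasureTheory Set

lemma integrable_phi : Integrable phi := by
  obtain ⟨hint, -⟩ := integral_id_mul_exp (β := 1) one_pos
  have e : phi = (Ioi (0:ℝ)).indicator (fun y => y * Real.exp (-(1 * y))) := by
    funext y
    by_cases hy : y ≤ 0
    · have h3 : y ∉ Ioi (0:ℝ) := fun hh => absurd hh (not_lt.mpr hy)
      simp [phi, hy, h3]
    · have h3 : y ∈ Ioi (0:ℝ) := not_le.mp hy
      simp [phi, hy, h3]
  rw [e]
  exact IntegrableOn.integrable_indicator hint measurableSet_Ioi

lemma integrable_kern : Integrable kern := by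
  have : kern = fun t => phi (t + 4/3) := funext kern_eq_phi
  rw [this]
  exact integrable_phi.comp_add_right (4/3)

lemma integrable_mul_kern {f : ℝ → ℝ} (hf : Measurable f) (h0 : ∀ t, 0 ≤ f t)
    (h1 : ∀ t, f t ≤ 1) : Integrable (fun t => f t * kern t) := by
  apply integrable_kern.bdd_mul (c := 1) hf.aestronglyMeasurable
  apply Filter.Eventually.of_forall
  intro t
  rw [Real.norm_eq_abs, abs_of_nonneg (h0 t)]; exact h1 t

/-- The basic comparison inequality. -/
lemma compare_main {S : ℝ → ℝ} (hS0 : ∀ t, 0 ≤ S t) (hS1 : ∀ t, S t ≤ 1) (hSm : Measurable S)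
    (hint : IntegrableOn S (Ioi 0)) (hint' : IntegrableOn (fun t => 1 - S t) (Iic 0))
    (hmean : ∫ t in Ioi 0, S t = ∫ t in Iic 0, (1 - S t))
    {u v κ lam th : ℝ} (hlam : 0 < lam)
    (hin : ∀ t ∈ Icc u v, κ ≤ kern t ∧ Efun lam th t ≤ S t)
    (hout : ∀ t, t ∉ Icc u v → kern t ≤ κ ∧ S t ≤ Efun lam th t) :
    (∫ t, Efun lam th t * kern t) - κ * (th + 1 / lam) ≤ ∫ t, S t * kern t := by
  obtain ⟨hSi, hSz⟩ := S_sub_step hint hint' hmean
  have hEi := Efun_sub_step_integrable hlam th
  have hEz := Efun_sub_step_integral hlam th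
  have i1 := integrable_mul_kern hSm hS0 hS1
  have i2 := integrable_mul_kern (continuous_Efun lam th).measurable
    (fun t => (Efun_pos lam th t).le) (Efun_le_one lam th)
  have e3 : (fun t => S t - Efun lam th t)
      = fun t => (S t - stepf t) - (Efun lam th t - stepf t) := by
    funext t; ring
  have i3 : Integrable (fun t => S t - Efun lam th t) := by
    rw [e3]; exact hSi.sub hEi
  have h3 : ∫ t, (S t - Efun lam th t) = -(th + 1 / lam) := by
    rw [e3, integral_sub hSi hEi, hSz, hEz]; ring
  have hmono : ∫ t, κ * (S t - Efun lam th t)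
      ≤ ∫ t, (S t * kern t - Efun lam th t * kern t) := by
    apply integral_mono (i3.const_mul κ) (i1.sub i2)
    intro t
    by_cases ht : t ∈ Icc u v
    · obtain ⟨h1, h2⟩ := hin t ht
      show κ * (S t - Efun lam th t) ≤ S t * kern t - Efun lam th t * kern t
      nlinarith
    · obtain ⟨h1, h2⟩ := hout t ht
      show κ * (S t - Efun lam th t) ≤ S t * kern t - Efun lam th t * kern t
      nlinarith
  rw [integral_const_mul, h3, integral_sub i1 i2] at hmono
  linarith

/-- the hypotheses on the survival function -/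
structure Hyp (S : ℝ → ℝ) : Prop where
  pos : ∀ t, 0 < S t
  lt_one : ∀ t, S t < 1
  cont : Continuous S
  lc : ∀ x y, S x * S y ≤ S ((x + y) / 2) ^ 2
  int_pos : IntegrableOn S (Ioi 0)
  int_neg : IntegrableOn (fun t => 1 - S t) (Iic 0)
  mean : ∫ t in Ioi 0, S t = ∫ t in Iic 0, (1 - S t)

/-- `log S` -/
noncomputable def ell (S : ℝ → ℝ) (t : ℝ) : ℝ := Real.log (S t)

/-- left end of the level interval -/
noncomputable def uf (r : ℝ) : ℝ := xr r - 4/3

/-- right end of the level interval -/
noncomputable def vf (r : ℝ) : ℝ := r * xr r - 4/3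

/-- (negative of the) chord slope -/
noncomputable def lamf (S : ℝ → ℝ) (r : ℝ) : ℝ := (ell S (uf r) - ell S (vf r)) / (vf r - uf r)

/-- the shift of the chord exponential -/
noncomputable def thf (S : ℝ → ℝ) (r : ℝ) : ℝ := uf r + ell S (uf r) / lamf S r

/-- sign function of the mean of the chord exponential -/
noncomputable def hfun (S : ℝ → ℝ) (r : ℝ) : ℝ := ell S (uf r) + lamf S r * uf r + 1

lemma uf_lt_vf {r : ℝ} (hr : 1 < r) : uf r < vf r := by
  unfold uf vf
  have := r_mul_xr_sub hr
  have := Real.log_pos hr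
  linarith

lemma vf_sub_uf {r : ℝ} (hr : 1 < r) : vf r - uf r = Real.log r := by
  unfold uf vf
  have := r_mul_xr_sub hr
  linarith

lemma uf_neg {r : ℝ} (hr : 1 < r) : uf r < 0 := by
  unfold uf; linarith [xr_lt_one hr]

variable {S : ℝ → ℝ}

lemma Hyp.ell_cont (h : Hyp S) : Continuous (ell S) :=
  h.cont.log (fun t => (h.pos t).ne')

lemma Hyp.ell_mid (h : Hyp S) : ∀ x y, (ell S x + ell S y) / 2 ≤ ell S ((x + y) / 2) := by
  intro x y
  have h1 := Real.log_le_log (mul_pos (h.pos x) (h.pos y)) (h.lc x y)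
  rw [Real.log_mul (h.pos x).ne' (h.pos y).ne', Real.log_pow] at h1
  unfold ell
  push_cast at h1
  linarith

lemma Hyp.ell_neg (h : Hyp S) (t : ℝ) : ell S t < 0 := Real.log_neg (h.pos t) (h.lt_one t)

lemma Hyp.S_eq (h : Hyp S) (t : ℝ) : S t = Real.exp (ell S t) := (Real.exp_log (h.pos t)).symm

lemma Hyp.lam0_pos (h : Hyp S) : 0 < ell S (-(4/3)) - ell S (-(1/3)) := by
  by_contra hcon
  rw [not_lt] at hcon
  have hbound : ∀ t ≤ -(4/3 : ℝ), S t ≤ S (-(4/3)) := by
    intro t ht
    have h1 := chord_left h.ell_cont h.ell_mid (u := -(4/3)) (v := -(1/3)) (by norm_num) ht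
    have h2 : 0 ≤ (ell S (-(4/3)) - ell S (-(1/3))) / (-(1/3) - -(4/3)) * (t - -(4/3)) := by
      apply mul_nonneg_of_nonpos_of_nonpos
      · exact div_nonpos_of_nonpos_of_nonneg hcon (by norm_num)
      · linarith
    have h3 : ell S t ≤ ell S (-(4/3)) := by linarith
    rw [h.S_eq t, h.S_eq (-(4/3))]; exact Real.exp_le_exp.mpr h3
  have hi : IntegrableOn (fun t => 1 - S t) (Iic (-(4/3))) :=
    h.int_neg.mono_set (Iic_subset_Iic.mpr (by norm_num))
  have hc : IntegrableOn (fun _ : ℝ => 1 - S (-(4/3))) (Iic (-(4/3))) := by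
    refine Integrable.mono' hi aestronglyMeasurable_const ?_
    rw [ae_restrict_iff' measurableSet_Iic]
    apply Filter.Eventually.of_forall
    intro t ht
    rw [Real.norm_eq_abs, abs_of_nonneg (by linarith [h.lt_one (-(4/3))])]
    linarith [hbound t ht]
  rw [integrableOn_const_iff] at hc
  rcases hc with hc | hc
  · rw [enorm_eq_zero] at hc
    linarith [h.lt_one (-(4/3))]
  · rw [Real.volume_Iic] at hc; exact lt_irrefl _ hc

lemma Hyp.lamf_ge (h : Hyp S) {r : ℝ} (hr : 1 < r) :
    ell S (-(4/3)) - ell S (-(1/3)) ≤ lamf S r := by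
  have := slope_mono h.ell_cont h.ell_mid (u₀ := -(4/3)) (v₀ := -(1/3)) (u := uf r) (v := vf r)
    (by norm_num) (by unfold uf; linarith [xr_pos hr])
    (by unfold vf; linarith [one_lt_r_mul_xr hr]) (uf_lt_vf hr)
  have e : (-(1/3 : ℝ) - -(4/3)) = 1 := by norm_num
  rw [e, div_one] at this
  exact this

lemma Hyp.lamf_pos (h : Hyp S) {r : ℝ} (hr : 1 < r) : 0 < lamf S r :=
  lt_of_lt_of_le h.lam0_pos (h.lamf_ge hr)

lemma Hyp.thf_add (h : Hyp S) {r : ℝ} (hr : 1 < r) :
    thf S r + 1 / lamf S r = hfun S r / lamf S r := by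
  have := (h.lamf_pos hr).ne'
  unfold thf hfun
  field_simp
  ring

lemma Hyp.exponent_eq (h : Hyp S) {r : ℝ} (hr : 1 < r) (t : ℝ) :
    -lamf S r * (t - thf S r) = ell S (uf r) - lamf S r * (t - uf r) := by
  have := (h.lamf_pos hr).ne'
  unfold thf
  field_simp
  ring

/-- inside the level interval the chord exponential is below `S`. -/
lemma Hyp.E_le_S (h : Hyp S) {r : ℝ} (hr : 1 < r) {t : ℝ} (ht : t ∈ Icc (uf r) (vf r)) :
    Efun (lamf S r) (thf S r) t ≤ S t := by
  have h1 : ell S (uf r) - lamf S r * (t - uf r) ≤ ell S t :=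
    chord_inside h.ell_cont h.ell_mid (uf_lt_vf hr) ht
  calc Efun (lamf S r) (thf S r) t ≤ Real.exp (-lamf S r * (t - thf S r)) := Efun_le_exp _ _ _
    _ = Real.exp (ell S (uf r) - lamf S r * (t - uf r)) := by rw [h.exponent_eq hr]
    _ ≤ Real.exp (ell S t) := Real.exp_le_exp.mpr h1
    _ = S t := (h.S_eq t).symm

/-- outside the level interval the chord exponential is above `S`. -/
lemma Hyp.S_le_E (h : Hyp S) {r : ℝ} (hr : 1 < r) {t : ℝ} (ht : t ≤ uf r ∨ vf r ≤ t) :
    S t ≤ Efun (lamf S r) (thf S r) t := by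
  have h1 : ell S t ≤ ell S (uf r) - lamf S r * (t - uf r) := by
    rcases ht with h' | h'
    · exact chord_left h.ell_cont h.ell_mid (uf_lt_vf hr) h'
    · exact chord_right h.ell_cont h.ell_mid (uf_lt_vf hr) h'
  unfold Efun
  apply le_min (h.lt_one t).le
  rw [h.exponent_eq hr, h.S_eq t]
  exact Real.exp_le_exp.mpr h1

/-- the key inequality for each `r > 1`. -/
lemma Hyp.key (h : Hyp S) {r : ℝ} (hr : 1 < r) :
    (∫ t, Efun (lamf S r) (thf S r) t * kern t) - phi (xr r) * (hfun S r / lamf S r)
      ≤ ∫ t, S t * kern t := by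
  have hmain := compare_main (S := S) (fun t => (h.pos t).le) (fun t => (h.lt_one t).le)
    h.cont.measurable h.int_pos h.int_neg h.mean (u := uf r) (v := vf r) (κ := phi (xr r))
    (lam := lamf S r) (th := thf S r) (h.lamf_pos hr) ?_ ?_
  · rw [h.thf_add hr] at hmain; exact hmain
  · intro t ht
    exact ⟨kern_ge_level hr ht.1 ht.2, h.E_le_S hr ht⟩
  · intro t ht
    have ht' : t ≤ uf r ∨ vf r ≤ t := by
      by_contra hh
      rw [not_or, not_le, not_le] at hh
      exact ht ⟨hh.1.le, hh.2.le⟩
    exact ⟨kern_le_level hr ht', h.S_le_E hr ht'⟩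

lemma continuousOn_xr : ContinuousOn xr (Ioi 1) := by
  unfold xr
  apply ContinuousOn.div
  · apply Real.continuousOn_log.mono
    intro r hr
    simp only [mem_compl_iff, mem_singleton_iff]
    have : (1:ℝ) < r := hr
    linarith
  · exact continuousOn_id.sub continuousOn_const
  · intro r hr
    have : (1:ℝ) < r := hr
    linarith

lemma continuousOn_uf : ContinuousOn uf (Ioi 1) := by
  unfold uf
  exact continuousOn_xr.sub continuousOn_const

lemma continuousOn_vf : ContinuousOn vf (Ioi 1) := by
  unfold vf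
  exact (continuousOn_id.mul continuousOn_xr).sub continuousOn_const

lemma Hyp.continuousOn_lamf (h : Hyp S) : ContinuousOn (lamf S) (Ioi 1) := by
  unfold lamf
  apply ContinuousOn.div
  · exact (h.ell_cont.comp_continuousOn continuousOn_uf).sub
      (h.ell_cont.comp_continuousOn continuousOn_vf)
  · exact continuousOn_vf.sub continuousOn_uf
  · intro r hr
    have := uf_lt_vf (r := r) hr
    linarith

lemma Hyp.continuousOn_hfun (h : Hyp S) : ContinuousOn (hfun S) (Ioi 1) := by
  unfold hfun
  exact ((h.ell_cont.comp_continuousOn continuousOn_uf).add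
    (h.continuousOn_lamf.mul continuousOn_uf)).add continuousOn_const

lemma Hyp.sign_cases (h : Hyp S) (hne : ∀ r, 1 < r → hfun S r ≠ 0) :
    (∀ r, 1 < r → 0 < hfun S r) ∨ (∀ r, 1 < r → hfun S r < 0) := by
  by_contra hcon
  rw [not_or] at hcon
  obtain ⟨h1, h2⟩ := hcon
  rw [not_forall] at h1 h2
  obtain ⟨r₁, hr₁⟩ := h1
  obtain ⟨r₂, hr₂⟩ := h2
  rw [Classical.not_imp] at hr₁ hr₂
  have hiv := isPreconnected_Ioi.intermediate_value (a := r₁) (b := r₂) hr₁.1 hr₂.1
    h.continuousOn_hfun
  have h0 : (0:ℝ) ∈ Icc (hfun S r₁) (hfun S r₂) := ⟨not_lt.mp hr₁.2, not_lt.mp hr₂.2⟩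
  obtain ⟨r, hr, hr0⟩ := hiv h0
  exact hne r hr hr0

lemma exists_small_xr {ε : ℝ} (hε : 0 < ε) : ∃ r, 1 < r ∧ xr r ≤ ε := by
  set R : ℝ := 1 + 2 / ε with hR
  have hR1 : 1 < R := by rw [hR]; have : 0 < 2 / ε := by positivity
                         linarith
  refine ⟨R ^ 2, by nlinarith, ?_⟩
  unfold xr
  have hlog : Real.log (R ^ 2) = 2 * Real.log R := by
    rw [Real.log_pow]; norm_num
  have hle : Real.log R ≤ R - 1 := Real.log_le_sub_one_of_pos (by linarith)
  have hden : 0 < R ^ 2 - 1 := by nlinarith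
  rw [hlog, div_le_iff₀ hden]
  have h2 : 2 / ε * ε = 2 := by field_simp
  have h3 : ε * (R ^ 2 - 1) = ε * (R - 1) * (R + 1) := by ring
  have h4 : ε * (R + 1) ≥ 2 := by rw [hR]; nlinarith
  have h5 : 0 ≤ R - 1 := by linarith
  nlinarith

/-- Case A: the chord exponential has mean zero. -/
lemma Hyp.caseA (h : Hyp S) {r : ℝ} (hr : 1 < r) (h0 : hfun S r = 0) :
    4 / 9 * Real.exp (-(1/3)) ≤ ∫ t, S t * kern t := by
  have hk := h.key hr
  rw [h0, zero_div, mul_zero, sub_zero] at hk
  have hth : thf S r = -1 / lamf S r := by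
    have := h.thf_add hr
    rw [h0, zero_div] at this
    have e : -1 / lamf S r = -(1 / lamf S r) := by ring
    rw [e]; linarith
  rw [hth] at hk
  exact (J_ge (h.lamf_pos hr)).trans hk

/-- Case B: all chord exponentials have positive mean. -/
lemma Hyp.caseB (h : Hyp S) (hB : ∀ r, 1 < r → 0 < hfun S r) :
    4 / 9 * Real.exp (-(1/3)) ≤ ∫ t, S t * kern t := by
  set lam0 := ell S (-(4/3)) - ell S (-(1/3)) with hlam0
  have hlam0 : 0 < lam0 := h.lam0_pos
  have hstep : ∀ r, 1 < r → 4 / 9 * Real.exp (-(1/3)) - xr r / lam0 ≤ ∫ t, S t * kern t := by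
    intro r hr
    have hk := h.key hr
    have hl := h.lamf_pos hr
    have hge := h.lamf_ge hr
    -- the chord exponential dominates the mean-zero one
    have hth : -1 / lamf S r ≤ thf S r := by
      have := h.thf_add hr
      have hpos : 0 < hfun S r / lamf S r := div_pos (hB r hr) hl
      have e : -1 / lamf S r = -(1 / lamf S r) := by ring
      rw [e]; linarith
    have i1 := integrable_mul_kern (continuous_Efun (lamf S r) (-1 / lamf S r)).measurable
      (fun t => (Efun_pos _ _ t).le) (Efun_le_one _ _)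
    have i2 := integrable_mul_kern (continuous_Efun (lamf S r) (thf S r)).measurable
      (fun t => (Efun_pos _ _ t).le) (Efun_le_one _ _)
    have hmono : ∫ t, Efun (lamf S r) (-1 / lamf S r) t * kern t
        ≤ ∫ t, Efun (lamf S r) (thf S r) t * kern t := by
      apply integral_mono i1 i2
      intro t
      exact mul_le_mul_of_nonneg_right (Efun_mono_th hl.le hth t) (kern_nonneg t)
    have hJ := J_ge hl
    -- bound the correction term
    have hh1 : hfun S r ≤ 1 := by
      unfold hfun
      have := h.ell_neg (uf r)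
      have := uf_neg hr
      nlinarith
    have hκ : phi (xr r) ≤ xr r := phi_le_self (xr_pos hr).le
    have hκ0 : 0 ≤ phi (xr r) := phi_nonneg _
    have hcorr : phi (xr r) * (hfun S r / lamf S r) ≤ xr r / lam0 := by
      have h1 : hfun S r / lamf S r ≤ 1 / lam0 := by
        rw [div_le_div_iff₀ hl hlam0]
        nlinarith [hB r hr]
      have h2 : 0 ≤ hfun S r / lamf S r := (div_pos (hB r hr) hl).le
      calc phi (xr r) * (hfun S r / lamf S r) ≤ xr r * (1 / lam0) :=
            mul_le_mul hκ h1 h2 (xr_pos hr).le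
        _ = xr r / lam0 := by ring
    linarith
  by_contra hcon
  rw [not_le] at hcon
  set gap := 4 / 9 * Real.exp (-(1/3)) - ∫ t, S t * kern t with hgap
  have hgap_pos : 0 < gap := by rw [hgap]; linarith
  obtain ⟨r, hr, hxr⟩ := exists_small_xr (ε := gap * lam0 / 2) (by positivity)
  have := hstep r hr
  have h1 : xr r / lam0 ≤ gap / 2 := by
    rw [div_le_iff₀ hlam0]; linarith
  linarith

/-- Case C: all chord exponentials have negative mean. -/
lemma Hyp.caseC (h : Hyp S) (hC : ∀ r, 1 < r → hfun S r < 0) :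
    4 / 9 * Real.exp (-(1/3)) ≤ ∫ t, S t * kern t := by
  have hstep : ∀ r, 1 < r → 4 / 9 * Real.exp (-(1/3)) - Real.log r ≤ ∫ t, S t * kern t := by
    intro r hr
    have hk := h.key hr
    have hl := h.lamf_pos hr
    have hneg : hfun S r / lamf S r < 0 := div_neg_of_neg_of_pos (hC r hr) hl
    have hadd := h.thf_add hr
    have hth : thf S r ≤ -1 / lamf S r := by
      have e : -1 / lamf S r = -(1 / lamf S r) := by ring
      rw [e]; linarith
    -- drop the (favourable) correction term
    have hk' : ∫ t, Efun (lamf S r) (thf S r) t * kern t ≤ ∫ t, S t * kern t := by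
      have : 0 ≤ -(phi (xr r) * (hfun S r / lamf S r)) := by
        have := phi_nonneg (xr r)
        nlinarith
      linarith
    -- compare the two exponentials
    obtain ⟨hSi, hSz⟩ := S_sub_step h.int_pos h.int_neg h.mean
    have hE0i := Efun_sub_step_integrable hl (-1 / lamf S r)
    have hE0z := Efun_sub_step_integral hl (-1 / lamf S r)
    have hEi := Efun_sub_step_integrable hl (thf S r)
    have hEz := Efun_sub_step_integral hl (thf S r)
    have i1 := integrable_mul_kern (continuous_Efun (lamf S r) (-1 / lamf S r)).measurable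
      (fun t => (Efun_pos _ _ t).le) (Efun_le_one _ _)
    have i2 := integrable_mul_kern (continuous_Efun (lamf S r) (thf S r)).measurable
      (fun t => (Efun_pos _ _ t).le) (Efun_le_one _ _)
    have eD : (fun t => Efun (lamf S r) (-1 / lamf S r) t - Efun (lamf S r) (thf S r) t)
        = fun t => (Efun (lamf S r) (-1 / lamf S r) t - stepf t)
            - (Efun (lamf S r) (thf S r) t - stepf t) := by
      funext t; ring
    have iD : Integrable
        (fun t => Efun (lamf S r) (-1 / lamf S r) t - Efun (lamf S r) (thf S r) t) := by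
      rw [eD]; exact hE0i.sub hEi
    have hD : ∫ t, (Efun (lamf S r) (-1 / lamf S r) t - Efun (lamf S r) (thf S r) t)
        = -(hfun S r / lamf S r) := by
      rw [eD, integral_sub hE0i hEi, hE0z, hEz, ← hadd]; ring
    have hdiff : ∫ t, (Efun (lamf S r) (-1 / lamf S r) t * kern t
          - Efun (lamf S r) (thf S r) t * kern t)
        ≤ ∫ t, (Efun (lamf S r) (-1 / lamf S r) t - Efun (lamf S r) (thf S r) t) := by
      apply integral_mono (i1.sub i2) iD
      intro t
      have h1 := Efun_mono_th hl.le hth t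
      have h2 := kern_le_one t
      have h3 := kern_nonneg t
      show Efun (lamf S r) (-1 / lamf S r) t * kern t - Efun (lamf S r) (thf S r) t * kern t
        ≤ Efun (lamf S r) (-1 / lamf S r) t - Efun (lamf S r) (thf S r) t
      nlinarith
    rw [integral_sub i1 i2, hD] at hdiff
    -- bound on the mean through the sign pattern
    have eS : (fun t => S t - Efun (lamf S r) (thf S r) t)
        = fun t => (S t - stepf t) - (Efun (lamf S r) (thf S r) t - stepf t) := by
      funext t; ring
    have iS : Integrable (fun t => S t - Efun (lamf S r) (thf S r) t) := by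
      rw [eS]; exact hSi.sub hEi
    have hSint : ∫ t, (S t - Efun (lamf S r) (thf S r) t) = -(hfun S r / lamf S r) := by
      rw [eS, integral_sub hSi hEi, hSz, hEz, ← hadd]; ring
    have iI : Integrable ((Icc (uf r) (vf r)).indicator (fun _ : ℝ => (1:ℝ))) := by
      apply IntegrableOn.integrable_indicator _ measurableSet_Icc
      exact integrableOn_const (by simp)
    have hbd : ∫ t, (S t - Efun (lamf S r) (thf S r) t)
        ≤ ∫ t, (Icc (uf r) (vf r)).indicator (fun _ : ℝ => (1:ℝ)) t := by
      apply integral_mono iS iI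
      intro t
      by_cases ht : t ∈ Icc (uf r) (vf r)
      · have h1 := (h.lt_one t).le
        have h2 := Efun_pos (lamf S r) (thf S r) t
        simp only [indicator_of_mem ht]
        linarith
      · have ht' : t ≤ uf r ∨ vf r ≤ t := by
          by_contra hh
          rw [not_or, not_le, not_le] at hh
          exact ht ⟨hh.1.le, hh.2.le⟩
        have h1 := h.S_le_E hr ht'
        simp only [indicator_of_notMem ht]
        linarith
    rw [hSint, integral_indicator measurableSet_Icc, setIntegral_const,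
      Real.volume_real_Icc_of_le (uf_lt_vf hr).le, vf_sub_uf hr] at hbd
    simp only [smul_eq_mul, mul_one] at hbd
    have hJ := J_ge hl
    linarith
  by_contra hcon
  rw [not_le] at hcon
  set gap := 4 / 9 * Real.exp (-(1/3)) - ∫ t, S t * kern t with hgap
  have hgap_pos : 0 < gap := by rw [hgap]; linarith
  have hr : (1:ℝ) < Real.exp (gap / 2) := by
    rw [← Real.exp_zero]; exact Real.exp_lt_exp.mpr (by positivity)
  have := hstep _ hr
  rw [Real.log_exp] at this
  linarith

/-- **The abstract comparison theorem.** -/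
theorem abstract_bound (S : ℝ → ℝ) (hpos : ∀ t, 0 < S t) (hlt : ∀ t, S t < 1)
    (hcont : Continuous S)
    (hlc : ∀ x y, S x * S y ≤ S ((x + y) / 2) ^ 2)
    (hint : IntegrableOn S (Set.Ioi 0)) (hint' : IntegrableOn (fun t => 1 - S t) (Set.Iic 0))
    (hmean : ∫ t in Set.Ioi 0, S t = ∫ t in Set.Iic 0, (1 - S t)) :
    4 / 9 * Real.exp (-(1/3)) ≤ ∫ t, S t * kern t := by
  have h : Hyp S := ⟨hpos, hlt, hcont, hlc, hint, hint', hmean⟩
  by_cases hA : ∃ r, 1 < r ∧ hfun S r = 0
  · obtain ⟨r, hr, h0⟩ := hA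
    exact h.caseA hr h0
  · have hne : ∀ r, 1 < r → hfun S r ≠ 0 := fun r hr h0 => hA ⟨r, hr, h0⟩
    rcases h.sign_cases hne with hB | hC
    · exact h.caseB hB
    · exact h.caseC hC

end Crest.Agent.Lead
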